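import Vale.Agent.P011N.X1.Three
import Vale.Agent.P011.H925.Full.NF

/-!
The clause on groups of type `A` over number fields, split algebras included.
-/

open Module Matrix

set_option linter.unusedSectionVars false

namespace Vale.Agent.P011N.X1

open Vale.Agent.P011 Vale.Agent.P011.H738

variable {k K A Ω : Type} [Field k] [NumberField k] [Field K] [StarRing K] [Ring A] [StarRing A]
  [Algebra k K] [Algebra k A] [Algebra K A] [IsScalarTower k K A] [StarModule K A]
  [Field Ω] [Algebra K Ω] {n : ℕ}

/-- **Number fields, algebras with zero divisors**: there is no proper subgroup of finite index. -/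
theorem top_of_index (hA : Anis k K A n) (hn : 3 ≤ n) (hdiv : ∃ x : A, x ≠ 0 ∧ ¬ IsUnit x)
    (f : A →ₐ[K] Matrix (Fin n) (Fin n) Ω) (N : Subgroup (SUA f)) (hN : N.index ≠ 0) : N = ⊤ := by
  have hn0 : 0 < n := by omega
  have hKA : FiniteDimensional K A := FiniteDimensional.of_finrank_pos (by
    rw [hA.finrank_eq]; positivity)
  have hK0 : CharZero K := charZero_of_injective_algebraMap (algebraMap k K).injective
  have hkK : FiniteDimensional k K := FiniteDimensional.of_finrank_pos (by
    rw [A1.fix_rank hA.fixed hA.star_ne]; omega)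
  have hNK : NumberField K := NumberField.of_module_finite k K
  have := hA.central
  have := hA.simple
  obtain ⟨P⟩ := H984.exists_pj (K := K) hA.anisotropic
  obtain ⟨m, ⟨F⟩⟩ := H984.exists_fm K hA.anisotropic P
  obtain ⟨d, hnd, hd⟩ := F.exists_deg hA.finrank_eq
  have hm : 2 ≤ m := F.two_le hdiv
  have hd0 : 0 < d := Nat.pos_of_ne_zero (by
    rintro rfl
    omega)
  by_cases h3 : d = 1 ∧ m = 3
  · obtain ⟨rfl, rfl⟩ := h3
    subst hnd
    exact top_three hA F hd f N hN
  have hcen : Algebra.IsCentral K P.Cr := F.isCentral hA.central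
  have hfin : FiniteDimensional K P.Cr := FiniteDimensional.of_finrank_pos (by
    rw [hd]; positivity)
  obtain ⟨f'⟩ := H268.exists_split_sepClosed (K := K) (A := P.Cr) (E := AlgebraicClosure K) hd
  let Φ := F.iso f f' hn0 hA.finrank_eq hnd
  have h1 : N.map Φ.toMonoidHom = ⊤ := by
    have h2 : (N.map Φ.toMonoidHom).index ≠ 0 := by
      rwa [Subgroup.index_map_of_bijective Φ.bijective]
    by_cases hd2 : 2 ≤ d
    · exact (F3.all_clauses hA.star_ne hd2 hd f' hm F.HH (F.isAnisotropic hA.anisotropic)).1 _ h2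
    · obtain rfl : d = 1 := by omega
      exact (W.quasi_all hA.star_ne hd0 hd f' (by omega) F.HH
        (F.isAnisotropic hA.anisotropic)).1 _ h2
  rw [eq_top_iff]
  intro g _
  have h2 : Φ g ∈ N.map Φ.toMonoidHom := h1 ▸ Subgroup.mem_top _
  obtain ⟨g', hg', hgg⟩ := h2
  rwa [Φ.injective hgg] at hg'

/-- The clause on groups of type `A` over number fields in the older letters. -/
theorem old_nf (hA : Anis k K A n) (hn : 3 ≤ n) (f : A →ₐ[K] Matrix (Fin n) (Fin n) Ω) :
    ∃ δ : H732F.GK f →* H732F.HA A n (H732F.Adiv k K A), H732F.IsDiagonal δ ∧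
      DenseRange δ ∧ ∀ N : Subgroup (H732F.GK f), N.index ≠ 0 → H732F.IsOpenPreimage δ N :=
  H973.Full.typeA_nf_of hA hn f (H925.Full.mp_all hn) fun hdiv N hN =>
    top_of_index hA hn hdiv f N hN

/-- **The clause on groups of type `A` over number fields**, all algebras. -/
theorem clauseA_all (h : AnisA k K A n) (f : A →ₐ[K] Matrix (Fin n) (Fin n) Ω) :
    ∃ δ : H925.Full.GK f →* H925.Full.HA k K A n, (∀ g, H925.Full.Diag g.1.1 (δ g)) ∧
      H925.Full.Q1 δ :=
  H925.Full.q1_of (st := H925.Full.stLin h.fixed) (fun _ => rfl)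
    (old_nf ⟨h.fixed, h.star_ne, h.central, h.simple, h.rank, h.aniso⟩ h.le f)

end Vale.Agent.P011N.X1
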