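import Vale.Agent.P011.D4.Oct
import Mathlib.LinearAlgebra.CrossProduct

/-!
Octonion algebras as sums of a quadratic extension and a ternary hermitian space.
-/

open Matrix

set_option linter.unusedSectionVars false
set_option linter.unusedSimpArgs false

namespace Vale.Agent.P011N.X1

open Vale.Agent.P011.D4 Vale.Agent.P011.MPQ

variable {k K : Type} [Field k] [Field K] [Algebra k K] [StarRing K]

/-- The element with given coordinates. -/
def cK (θ : K) (s t : k) : K := algebraMap k K s + algebraMap k K t * θ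

/-- The data of a quadratic extension. -/
structure Qd (a : kˣ) (θ : K) : Prop where
  fix : ∀ c : k, star (algebraMap k K c) = algebraMap k K c
  st : star θ = -θ
  sq : θ * θ = algebraMap k K a
  span : ∀ x : K, ∃ s t : k, x = cK θ s t
  two : (2 : K) ≠ 0

section

variable {a : kˣ} {θ : K}

theorem cK_add (s t s' t' : k) : cK θ s t + cK θ s' t' = cK θ (s + s') (t + t') := by
  simp only [cK, map_add]; ring

theorem cK_sub (s t s' t' : k) : cK θ s t - cK θ s' t' = cK θ (s - s') (t - t') := by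
  simp only [cK, map_sub]; ring

theorem cK_neg (s t : k) : -cK θ s t = cK θ (-s) (-t) := by
  simp only [cK, map_neg]; ring

theorem cK_alg (c : k) : algebraMap k K c = cK θ c 0 := by
  simp [cK]

theorem Qd.cK_mul (h : Qd a θ) (s t s' t' : k) :
    cK θ s t * cK θ s' t' = cK θ (s * s' + a * (t * t')) (s * t' + t * s') := by
  simp only [cK, map_add, map_mul, ← h.sq]; ring

theorem Qd.cK_star (h : Qd a θ) (s t : k) : star (cK θ s t) = cK θ s (-t) := by
  simp only [cK, star_add, star_mul', h.fix, h.st, map_neg]; ring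

theorem Qd.ne (h : Qd a θ) : θ ≠ 0 := by
  intro h0
  have h1 := h.sq
  rw [h0, zero_mul, eq_comm, map_eq_zero] at h1
  exact a.ne_zero h1

theorem Qd.inj (h : Qd a θ) {s t : k} (h0 : cK θ s t = 0) : s = 0 ∧ t = 0 := by
  have h1 := congrArg star h0
  rw [h.cK_star, star_zero] at h1
  simp only [cK, map_neg] at h0 h1
  have h2 : 2 * algebraMap k K s = 0 := by linear_combination h0 + h1
  have h3 : 2 * θ * algebraMap k K t = 0 := by linear_combination h0 - h1
  exact ⟨(map_eq_zero _).mp ((mul_eq_zero.mp h2).resolve_left h.two),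
    (map_eq_zero _).mp ((mul_eq_zero.mp h3).resolve_left (mul_ne_zero h.two h.ne))⟩

end

variable (K) in
/-- The coefficients of the hermitian form. -/
def hv (b c : kˣ) : Fin 3 → K :=
  ![-algebraMap k K b, -algebraMap k K c, algebraMap k K b * algebraMap k K c]

/-- The hermitian form. -/
def B (b c : kˣ) (w w' : Fin 3 → K) : K := star w' ⬝ᵥ (diagonal (hv K b c) *ᵥ w)

/-- The cross product. -/
def cr (b c : kˣ) (w w' : Fin 3 → K) : Fin 3 → K :=
  ![-algebraMap k K c * star (w 1 * w' 2 - w 2 * w' 1),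
    -algebraMap k K b * star (w 2 * w' 0 - w 0 * w' 2), star (w 0 * w' 1 - w 1 * w' 0)]

/-- The product. -/
def mm (b c : kˣ) (x y : K × (Fin 3 → K)) : K × (Fin 3 → K) :=
  (x.1 * y.1 - B b c x.2 y.2, x.1 • y.2 + star y.1 • x.2 + cr b c x.2 y.2)

variable {a b c : kˣ} {θ : K}

theorem B_eq (w w' : Fin 3 → K) : B b c w w' = -algebraMap k K b * (w 0 * star (w' 0)) +
    -algebraMap k K c * (w 1 * star (w' 1)) +
    algebraMap k K b * algebraMap k K c * (w 2 * star (w' 2)) := by
  simp only [B, dotProduct, mulVec_diagonal, Fin.sum_univ_three, hv, Pi.star_apply, cons_val]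
  ring

theorem Qd.B_cr (h : Qd a θ) (u v w : Fin 3 → K) :
    B b c u (cr b c v w) = algebraMap k K b * algebraMap k K c * Matrix.det ![u, v, w] := by
  rw [← triple_product_eq_det, B_eq, cross_apply, vec3_dotProduct]
  simp only [cr, cons_val, star_mul', star_neg, h.fix, star_star]
  ring

theorem hv_ne (i : Fin 3) : hv K b c i ≠ 0 := by
  have hb : algebraMap k K b ≠ 0 := (map_ne_zero _).mpr b.ne_zero
  have hc : algebraMap k K c ≠ 0 := (map_ne_zero _).mpr c.ne_zero
  fin_cases i <;> simp [hv, hb, hc]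

theorem eq_of_B {v w : Fin 3 → K} (h : ∀ u, B b c u v = B b c u w) : v = w := by
  funext i
  have h1 := h (Pi.single i 1)
  simp only [B, mulVec_single_one, dotProduct, Pi.star_apply] at h1
  rw [Finset.sum_eq_single i, Finset.sum_eq_single i] at h1
  · simp only [col_apply, diagonal_apply_eq] at h1
    exact star_injective (mul_right_cancel₀ (hv_ne i) h1)
  all_goals simp +contextual [col_apply, diagonal_apply_ne]

theorem B_iso {X : Matrix (Fin 3) (Fin 3) K}
    (hX : Xᴴ * diagonal (hv K b c) * X = diagonal (hv K b c)) (v w : Fin 3 → K) :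
    B b c (X *ᵥ v) (X *ᵥ w) = B b c v w := by
  rw [B, B, star_mulVec, mulVec_mulVec, ← dotProduct_mulVec, mulVec_mulVec, ← Matrix.mul_assoc, hX]

theorem iso_of_B {X : Matrix (Fin 3) (Fin 3) K}
    (h : ∀ v w, B b c (X *ᵥ v) (X *ᵥ w) = B b c v w) :
    Xᴴ * diagonal (hv K b c) * X = diagonal (hv K b c) := by
  ext i j
  have h1 := h (Pi.single j 1) (Pi.single i 1)
  rw [B, B, star_mulVec, mulVec_mulVec, ← dotProduct_mulVec, mulVec_mulVec, ← Matrix.mul_assoc,
    Pi.star_single, star_one, single_one_dotProduct, single_one_dotProduct, mulVec_single_one,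
    mulVec_single_one] at h1
  exact h1

theorem det_mulVec (X : Matrix (Fin 3) (Fin 3) K) (u v w : Fin 3 → K) :
    Matrix.det ![X *ᵥ u, X *ᵥ v, X *ᵥ w] = X.det * Matrix.det ![u, v, w] := by
  have h1 : (Matrix.of ![X *ᵥ u, X *ᵥ v, X *ᵥ w]) = Matrix.of ![u, v, w] * Xᵀ := by
    ext i j
    fin_cases i <;> simp [Matrix.mul_apply, mulVec, dotProduct, mul_comm]
  change (Matrix.of ![X *ᵥ u, X *ᵥ v, X *ᵥ w]).det = X.det * (Matrix.of ![u, v, w]).det
  rw [h1, det_mul, det_transpose, mul_comm]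

theorem Qd.cr_iso (h : Qd a θ) {X : Matrix (Fin 3) (Fin 3) K}
    (hX : Xᴴ * diagonal (hv K b c) * X = diagonal (hv K b c)) (hd : X.det = 1)
    (v w : Fin 3 → K) : cr b c (X *ᵥ v) (X *ᵥ w) = X *ᵥ cr b c v w := by
  refine eq_of_B (b := b) (c := c) fun u => ?_
  obtain ⟨u, rfl⟩ : ∃ u', X *ᵥ u' = u := ⟨X⁻¹ *ᵥ u, by
    rw [mulVec_mulVec, mul_nonsing_inv _ (by rw [hd]; exact isUnit_one), one_mulVec]⟩
  rw [h.B_cr, det_mulVec, hd, one_mul, B_iso hX, h.B_cr]

theorem Qd.det_of (h : Qd a θ) {X : Matrix (Fin 3) (Fin 3) K}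
    (h1 : ∀ v w, B b c (X *ᵥ v) (X *ᵥ w) = B b c v w)
    (h2 : ∀ v w, cr b c (X *ᵥ v) (X *ᵥ w) = X *ᵥ cr b c v w) : X.det = 1 := by
  have h3 := h.B_cr (b := b) (c := c) (X *ᵥ ![1, 0, 0]) (X *ᵥ ![0, 1, 0]) (X *ᵥ ![0, 0, 1])
  rw [h2, h1, h.B_cr, det_mulVec] at h3
  have h4 : Matrix.det ![![(1 : K), 0, 0], ![0, 1, 0], ![0, 0, 1]] = 1 := by
    rw [← triple_product_eq_det, cross_apply, vec3_dotProduct]
    simp
  rw [h4, mul_one, mul_one] at h3
  have hb : algebraMap k K b ≠ 0 := (map_ne_zero _).mpr b.ne_zero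
  have hc : algebraMap k K c ≠ 0 := (map_ne_zero _).mpr c.ne_zero
  exact ((mul_eq_left₀ (mul_ne_zero hb hc)).mp h3.symm)

/-- The coordinates of an octonion. -/
def ph (θ : K) : Oct a b c →ₗ[k] K × (Fin 3 → K) where
  toFun x := (cK θ x.fst.re x.fst.imI,
    ![cK θ x.fst.imJ x.fst.imK, cK θ x.snd.re x.snd.imI, cK θ x.snd.imJ (-x.snd.imK)])
  map_add' x y := by
    refine Prod.ext ?_ (funext fun i => ?_)
    · simp [cK_add]
    · fin_cases i <;> simp [cK_add, add_comm]
  map_smul' t x := by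
    refine Prod.ext ?_ (funext fun i => ?_)
    · simp [cK, Algebra.smul_def]; ring
    · fin_cases i <;> simp [cK, Algebra.smul_def] <;> ring

theorem ph_apply (x : Oct a b c) : ph θ x = (cK θ x.fst.re x.fst.imI,
    ![cK θ x.fst.imJ x.fst.imK, cK θ x.snd.re x.snd.imI, cK θ x.snd.imJ (-x.snd.imK)]) := rfl

theorem Qd.ph_bij (h : Qd a θ) : Function.Bijective (ph θ : Oct a b c → K × (Fin 3 → K)) := by
  constructor
  · rw [injective_iff_map_eq_zero]
    intro x hx
    obtain ⟨h1, h2⟩ := h.inj (congrArg Prod.fst hx)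
    obtain ⟨h3, h4⟩ := h.inj (congrFun (congrArg Prod.snd hx) 0)
    obtain ⟨h5, h6⟩ := h.inj (congrFun (congrArg Prod.snd hx) 1)
    obtain ⟨h7, h8⟩ := h.inj (congrFun (congrArg Prod.snd hx) 2)
    exact Oct.ext8 h1 h2 h3 h4 h5 h6 h7 (neg_eq_zero.mp h8)
  · rintro ⟨α, w⟩
    obtain ⟨s0, t0, h0⟩ := h.span α
    obtain ⟨s1, t1, h1⟩ := h.span (w 0)
    obtain ⟨s2, t2, h2⟩ := h.span (w 1)
    obtain ⟨s3, t3, h3⟩ := h.span (w 2)
    refine ⟨⟨⟨s0, t0, s1, t1⟩, ⟨s2, t2, s3, -t3⟩⟩, Prod.ext h0.symm (funext fun i => ?_)⟩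
    fin_cases i
    · exact h1.symm
    · exact h2.symm
    · simp only [ph_apply, neg_neg]
      exact h3.symm

theorem Qd.ph_mul (h : Qd a θ) (x y : Oct a b c) : ph θ (x * y) = mm b c (ph θ x) (ph θ y) := by
  refine Prod.ext ?_ (funext fun i => ?_)
  · simp only [ph_apply, mm, B_eq, cons_val, cK_alg (θ := θ), h.cK_star, h.cK_mul, cK_neg, cK_add,
      cK_sub]
    congr 1 <;> simp <;> ring
  · fin_cases i <;>
      simp only [ph_apply, mm, cr, cons_val, Fin.zero_eta, Fin.mk_one, Fin.reduceFinMk,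
        Pi.add_apply, Pi.smul_apply, smul_eq_mul, cK_alg (θ := θ), h.cK_star, h.cK_mul, cK_neg,
        cK_add, cK_sub] <;>
      congr 1 <;> simp <;> ring

theorem Qd.ph_norm (h : Qd a θ) (x : Oct a b c) : algebraMap k K (Oct.norm x) =
    (ph θ x).1 * star (ph θ x).1 + B b c (ph θ x).2 (ph θ x).2 := by
  simp only [ph_apply, B_eq, cons_val, cK_alg (θ := θ), h.cK_star, h.cK_mul, cK_neg, cK_add,
    cK_sub, Oct.norm, nrd]
  congr 1 <;> ring

theorem ph_gi : ph θ (Oct.gi : Oct a b c) = (θ, 0) := by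
  refine Prod.ext ?_ (funext fun i => ?_)
  · simp [ph_apply, Oct.gi, cK]
  · fin_cases i <;> simp [ph_apply, Oct.gi, cK]

theorem ph_one : ph θ (1 : Oct a b c) = (1, 0) := by
  refine Prod.ext ?_ (funext fun i => ?_)
  · simp [ph_apply, cK]
  · fin_cases i <;> simp [ph_apply, cK]

theorem cr_zero_left (w : Fin 3 → K) : cr b c 0 w = 0 := by
  funext i
  fin_cases i <;> simp [cr]

theorem cr_zero_right (w : Fin 3 → K) : cr b c w 0 = 0 := by
  funext i
  fin_cases i <;> simp [cr]

theorem B_zero_left (w : Fin 3 → K) : B b c 0 w = 0 := by simp [B]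

theorem B_zero_right (w : Fin 3 → K) : B b c w 0 = 0 := by simp [B]

/-- The octonion algebra of an anisotropic form is a division algebra. -/
theorem Qd.division (h : Qd a θ) (han : ∀ w : Fin 3 → K, B b c w w = 0 → w = 0) :
    Oct.Division a b c := by
  intro x hx
  obtain ⟨α, w, hw⟩ : ∃ α w, ph θ x = (α, w) := ⟨_, _, rfl⟩
  obtain ⟨y, hy0, hy⟩ : ∃ y : Fin 3 → K, y ≠ 0 ∧ B b c w y = 0 := by
    by_cases h0 : w 0 = 0
    · refine ⟨![1, 0, 0], fun h1 => one_ne_zero (congrFun h1 0), ?_⟩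
      simp [B_eq, h0]
    · refine ⟨![star (algebraMap k K c * w 1), -star (algebraMap k K b * w 0), 0], fun h1 => ?_, ?_⟩
      · have h2 : -star (algebraMap k K b * w 0) = 0 := congrFun h1 1
        rw [neg_eq_zero, star_eq_zero, mul_eq_zero, map_eq_zero] at h2
        exact h2.elim b.ne_zero h0
      · simp only [B_eq, cons_val, star_star, star_neg, star_zero]
        ring
  obtain ⟨z, hz⟩ := (h.ph_bij (b := b) (c := c)).2 (0, y)
  have h1 := h.ph_norm (x * z)
  rw [Oct.norm_mul, hx, zero_mul, map_zero, h.ph_mul, hw, hz] at h1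
  simp only [mm, mul_zero, hy, sub_zero, zero_mul, star_zero, zero_smul, add_zero, zero_add] at h1
  have h2 := congrArg (B b c y) (han _ h1.symm)
  have h3 : B b c y (α • y + cr b c w y) = star α * B b c y y + B b c y (cr b c w y) := by
    simp only [B, star_add, star_smul, add_dotProduct, smul_dotProduct, smul_eq_mul]
  have h4 : Matrix.det ![y, w, y] = 0 := by
    rw [← triple_product_eq_det, dot_cross_self]
  rw [h3, h.B_cr, h4, mul_zero, add_zero, B_zero_right] at h2
  have h5 : α = 0 := star_eq_zero.mp ((mul_eq_zero.mp h2).resolve_right fun h6 => hy0 (han _ h6))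
  have h6 := h.ph_norm x
  rw [hx, map_zero, hw, h5, zero_mul, zero_add] at h6
  apply (h.ph_bij (b := b) (c := c)).1
  rw [hw, h5, han w h6.symm, map_zero]
  rfl

end Vale.Agent.P011N.X1
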