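import Vale.Agent.P011N.X1.Mod
import Vale.Agent.P011.D4T.H369.FixI

/-!
Special unitary groups of anisotropic ternary hermitian forms over number fields have no proper
subgroups of finite index.
-/

open Matrix

set_option linter.unusedSectionVars false
set_option linter.unusedSimpArgs false

namespace Vale.Agent.P011N.X1

open Vale.Agent.P011.D4 Vale.Agent.P011.MPQ Vale.Agent.P011.D4.B.FI

variable {k K : Type} [Field k] [Field K] [Algebra k K] [StarRing K] {a b c : kˣ} {θ : K}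

/-- The coordinates as an isomorphism. -/
noncomputable def Qd.eq (h : Qd a θ) (b c : kˣ) : Oct a b c ≃ₗ[k] K × (Fin 3 → K) :=
  LinearEquiv.ofBijective (ph θ) h.ph_bij

theorem Qd.eq_apply (h : Qd a θ) (x : Oct a b c) : h.eq b c x = ph θ x := rfl

variable {G : Type} [Group G]

variable (k) in
/-- The action of matrices. -/
def act (μ : G →* Matrix (Fin 3) (Fin 3) K) (g : G) :
    (K × (Fin 3 → K)) ≃ₗ[k] K × (Fin 3 → K) where
  toFun x := (x.1, μ g *ᵥ x.2)
  invFun x := (x.1, μ g⁻¹ *ᵥ x.2)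
  map_add' x y := Prod.ext rfl (mulVec_add (μ g) x.2 y.2)
  map_smul' t x := Prod.ext rfl (by
    change μ g *ᵥ (t • x.2) = t • (μ g *ᵥ x.2)
    rw [← algebraMap_smul K t x.2, mulVec_smul, algebraMap_smul])
  left_inv x := Prod.ext rfl (by
    change μ g⁻¹ *ᵥ (μ g *ᵥ x.2) = x.2
    rw [mulVec_mulVec, ← map_mul, inv_mul_cancel, map_one, one_mulVec])
  right_inv x := Prod.ext rfl (by
    change μ g *ᵥ (μ g⁻¹ *ᵥ x.2) = x.2
    rw [mulVec_mulVec, ← map_mul, mul_inv_cancel, map_one, one_mulVec])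

theorem act_apply (μ : G →* Matrix (Fin 3) (Fin 3) K) (g : G) (x : K × (Fin 3 → K)) :
    act k μ g x = (x.1, μ g *ᵥ x.2) := rfl

/-- The automorphisms of the octonions given by unitary matrices. -/
noncomputable def Qd.sig (h : Qd a θ) (μ : G →* Matrix (Fin 3) (Fin 3) K)
    (h1 : ∀ g, (μ g)ᴴ * diagonal (hv K b c) * μ g = diagonal (hv K b c))
    (h2 : ∀ g, (μ g).det = 1) : G →* fixI a b c where
  toFun g := ⟨⟨((h.eq b c).trans (act k μ g)).trans (h.eq b c).symm, fun x y => by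
    apply (h.eq b c).injective
    change h.eq b c ((h.eq b c).symm (act k μ g (h.eq b c (x * y)))) =
      ph θ ((h.eq b c).symm (act k μ g (h.eq b c x)) * (h.eq b c).symm (act k μ g (h.eq b c y)))
    rw [h.ph_mul, ← h.eq_apply, ← h.eq_apply, LinearEquiv.apply_symm_apply,
      LinearEquiv.apply_symm_apply, LinearEquiv.apply_symm_apply, h.eq_apply, h.ph_mul]
    simp only [act_apply, mm, h.eq_apply, B_iso (h1 g), h.cr_iso (h1 g) (h2 g), mulVec_add,
      mulVec_smul]⟩, by
    apply (h.eq b c).injective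
    change h.eq b c ((h.eq b c).symm (act k μ g (h.eq b c Oct.gi))) = _
    rw [LinearEquiv.apply_symm_apply, h.eq_apply, ph_gi, act_apply, mulVec_zero]⟩
  map_one' := Subtype.ext (Subtype.ext (LinearEquiv.ext fun x => by
    apply (h.eq b c).injective
    change h.eq b c ((h.eq b c).symm (act k μ 1 (h.eq b c x))) = h.eq b c x
    rw [LinearEquiv.apply_symm_apply, act_apply, map_one, one_mulVec]))
  map_mul' g g' := Subtype.ext (Subtype.ext (LinearEquiv.ext fun x => by
    change (h.eq b c).symm (act k μ (g * g') (h.eq b c x)) = (h.eq b c).symm (act k μ g (h.eq b c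
      ((h.eq b c).symm (act k μ g' (h.eq b c x)))))
    rw [LinearEquiv.apply_symm_apply, act_apply, act_apply, act_apply, map_mul, mulVec_mulVec]))

theorem Qd.sig_apply (h : Qd a θ) (μ : G →* Matrix (Fin 3) (Fin 3) K)
    (h1 : ∀ g, (μ g)ᴴ * diagonal (hv K b c) * μ g = diagonal (hv K b c))
    (h2 : ∀ g, (μ g).det = 1) (g : G) (x : Oct a b c) :
    ph θ ((h.sig μ h1 h2 g).1.1 x) = ((ph θ x).1, μ g *ᵥ (ph θ x).2) :=
  (h.eq b c).apply_symm_apply _

/-- Automorphisms which fix the first generator come from unitary matrices. -/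
theorem Qd.exists_mat (h : Qd a θ) (φ : fixI a b c) : ∃ X : Matrix (Fin 3) (Fin 3) K,
    Xᴴ * diagonal (hv K b c) * X = diagonal (hv K b c) ∧ X.det = 1 ∧
      ∀ x, ph θ (φ.1.1 x) = ((ph θ x).1, X *ᵥ (ph θ x).2) := by
  let ψ := ((h.eq b c).symm.trans φ.1.1).trans (h.eq b c)
  have hψ : ∀ x, ψ (ph θ x) = ph θ (φ.1.1 x) := fun x => by
    change h.eq b c (φ.1.1 ((h.eq b c).symm (h.eq b c x))) = _
    rw [LinearEquiv.symm_apply_apply, h.eq_apply]
  have hm : ∀ x y, ψ (mm b c x y) = mm b c (ψ x) (ψ y) := by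
    intro x y
    obtain ⟨x, rfl⟩ := (h.ph_bij (b := b) (c := c)).2 x
    obtain ⟨y, rfl⟩ := (h.ph_bij (b := b) (c := c)).2 y
    rw [← h.ph_mul, hψ, hψ, hψ, φ.1.2, h.ph_mul]
  have hθ : ψ (θ, 0) = (θ, 0) := by
    rw [← ph_gi (a := a) (b := b) (c := c), hψ, mem_fixI.mp φ.2]
  have h1 : ψ (1, 0) = (1, 0) := by
    have h2 := hm (θ, 0) (1, 0)
    have h3 : mm b c (θ, 0) (1, 0) = (θ, 0) := by simp [mm, B_zero_left, cr_zero_left]
    rw [h3, hθ] at h2
    have h4 := congrArg Prod.fst h2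
    have h5 := congrArg Prod.snd h2
    simp only [mm, B_zero_left, cr_zero_left, sub_zero, smul_zero, add_zero] at h4 h5
    exact Prod.ext ((mul_eq_left₀ h.ne).mp h4.symm)
      ((smul_eq_zero.mp h5.symm).resolve_left h.ne)
  have hK : ∀ α : K, ψ (α, 0) = (α, 0) := by
    intro α
    obtain ⟨s, t, rfl⟩ := h.span α
    have e : ((cK θ s t, 0) : K × (Fin 3 → K)) = s • (1, 0) + t • (θ, 0) := by
      simp [cK, Algebra.smul_def]
    rw [e, map_add, map_smul, map_smul, h1, hθ]
  have hW : ∀ w : Fin 3 → K, (ψ (0, w)).1 = 0 := by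
    intro w
    have e : mm b c (θ, 0) (0, w) + mm b c (0, w) (θ, 0) = 0 := by
      simp [mm, B_zero_left, cr_zero_left, B_zero_right, cr_zero_right, h.st]
    have h2 := congrArg ψ e
    rw [map_add, hm, hm, hθ, map_zero] at h2
    have h3 := congrArg Prod.fst h2
    simp only [mm, B_zero_left, B_zero_right, sub_zero, Prod.fst_add, Prod.fst_zero] at h3
    have h4 : 2 * θ * (ψ (0, w)).1 = 0 := by linear_combination h3
    exact (mul_eq_zero.mp h4).resolve_left (mul_ne_zero h.two h.ne)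
  let T : (Fin 3 → K) →ₗ[K] Fin 3 → K :=
    { toFun := fun w => (ψ (0, w)).2
      map_add' := fun v w => by
        rw [← Prod.snd_add, ← map_add, Prod.mk_add_mk, add_zero]
      map_smul' := fun α w => by
        have e : mm b c (α, 0) (0, w) = (0, α • w) := by simp [mm, B_zero_left, cr_zero_left]
        rw [← e, hm, hK]
        simp [mm, cr_zero_left] }
  obtain ⟨X, hX⟩ : ∃ X : Matrix (Fin 3) (Fin 3) K, ∀ w, X *ᵥ w = (ψ (0, w)).2 :=
    ⟨LinearMap.toMatrix' T, fun w => LinearMap.toMatrix'_mulVec T w⟩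
  have hψX : ∀ (α : K) (w : Fin 3 → K), ψ (α, w) = (α, X *ᵥ w) := by
    intro α w
    have e : ((α, w) : K × (Fin 3 → K)) = (α, 0) + (0, w) := by simp
    rw [e, map_add, hK]
    exact Prod.ext (by rw [Prod.fst_add, hW, add_zero]) (by rw [Prod.snd_add, zero_add, hX])
  have hB : ∀ v w, B b c (X *ᵥ v) (X *ᵥ w) = B b c v w ∧
      cr b c (X *ᵥ v) (X *ᵥ w) = X *ᵥ cr b c v w := by
    intro v w
    have h2 := hm (0, v) (0, w)
    simp only [hψX, mm, mul_zero, zero_sub, star_zero, zero_smul, zero_add, Prod.mk.injEq,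
      neg_inj] at h2
    exact ⟨h2.1.symm, h2.2.symm⟩
  refine ⟨X, iso_of_B fun v w => (hB v w).1, h.det_of (fun v w => (hB v w).1)
    fun v w => (hB v w).2, fun x => ?_⟩
  rw [← hψ]
  exact hψX _ _

/-- **Ternary hermitian forms.** -/
theorem Qd.top [NumberField k] (h : Qd a θ) (han : ∀ w : Fin 3 → K, B b c w w = 0 → w = 0)
    (μ : G →* Matrix (Fin 3) (Fin 3) K) (hinj : Function.Injective μ)
    (h1 : ∀ g, (μ g)ᴴ * diagonal (hv K b c) * μ g = diagonal (hv K b c))
    (h2 : ∀ g, (μ g).det = 1)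
    (h3 : ∀ X : Matrix (Fin 3) (Fin 3) K, Xᴴ * diagonal (hv K b c) * X = diagonal (hv K b c) →
      X.det = 1 → ∃ g, μ g = X) (N : Subgroup G) (hN : N.index ≠ 0) : N = ⊤ := by
  have hb : Function.Bijective (h.sig μ h1 h2) := by
    constructor
    · rw [injective_iff_map_eq_one]
      intro g hg
      apply hinj
      rw [map_one]
      refine Matrix.ext_of_mulVec_single fun i => ?_
      obtain ⟨x, hx⟩ := (h.ph_bij (b := b) (c := c)).2 (0, Pi.single i 1)
      have h4 := h.sig_apply μ h1 h2 g x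
      rw [hg] at h4
      change ph θ x = _ at h4
      rw [hx] at h4
      rw [one_mulVec]
      exact (congrArg Prod.snd h4).symm
    · intro φ
      obtain ⟨X, hX1, hX2, hX3⟩ := h.exists_mat φ
      obtain ⟨g, rfl⟩ := h3 X hX1 hX2
      refine ⟨g, Subtype.ext (Subtype.ext (LinearEquiv.ext fun x => ?_))⟩
      apply (h.ph_bij (b := b) (c := c)).1
      rw [h.sig_apply, hX3]
  have : N.FiniteIndex := ⟨hN⟩
  have h4 := fixI_top (h.division han) (N.normalCore.map (h.sig μ h1 h2))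
    (Subgroup.Normal.map inferInstance _ hb.2) (by
      rw [Subgroup.index_map_of_bijective hb]
      exact N.normalCore.index_ne_zero_of_finite)
  rw [eq_top_iff]
  intro g _
  have h5 : h.sig μ h1 h2 g ∈ N.normalCore.map (h.sig μ h1 h2) := h4 ▸ Subgroup.mem_top _
  obtain ⟨g', hg', e⟩ := h5
  rw [← hb.1 e]
  exact N.normalCore_le hg'

end Vale.Agent.P011N.X1
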