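import Vale.Agent.P011N.X1.SU3
import Vale.Agent.P011N.A1.LocNs
import Vale.Agent.P011.H984.Full.Iso

/-!
Split algebras of degree three.
-/

open Module Matrix

set_option linter.unusedSectionVars false
set_option linter.unusedSimpArgs false

namespace Vale.Agent.P011N.X1

open Vale.Agent.P011 Vale.Agent.P011.H738

variable {k K A Ω : Type} [Field k] [NumberField k] [Field K] [StarRing K] [Ring A] [StarRing A]
  [Algebra k K] [Algebra k A] [Algebra K A] [IsScalarTower k K A] [StarModule K A]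
  [Field Ω] [Algebra K Ω]

theorem exists_qd (hfix : ∀ x : K, star x = x ↔ x ∈ Set.range (algebraMap k K))
    (hne : ∃ x : K, star x ≠ x) : ∃ (a : kˣ) (θ : K), Qd a θ := by
  have : CharZero K := charZero_of_injective_algebraMap (algebraMap k K).injective
  obtain ⟨θ, h0, hθ⟩ := A1.exists_skew hne
  obtain ⟨d, hd⟩ := (hfix (θ * θ)).mp (by rw [star_mul', hθ, neg_mul_neg])
  have hd0 : d ≠ 0 := by
    rintro rfl
    rw [map_zero] at hd
    exact mul_ne_zero h0 h0 hd.symm
  exact ⟨Units.mk0 d hd0, θ, fun c => (hfix _).mpr ⟨c, rfl⟩, hθ, hd.symm,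
    A1.fix_span hfix h0 hθ, two_ne_zero⟩

theorem top_diag (hA : Anis k K A 3) (ν : A ≃ₐ[K] Matrix (Fin 3) (Fin 3) K) {b c : kˣ}
    (hν : ∀ x, diagonal (hv K b c) * ν (star x) = (ν x)ᴴ * diagonal (hv K b c))
    (f : A →ₐ[K] Matrix (Fin 3) (Fin 3) Ω) (N : Subgroup (SUA f)) (hN : N.index ≠ 0) : N = ⊤ := by
  have := hA.central
  have := hA.simple
  have : FiniteDimensional K A := FiniteDimensional.of_finrank_pos (by
    rw [hA.finrank_eq]; positivity)
  obtain ⟨a, θ, h⟩ := exists_qd hA.fixed hA.star_ne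
  have hu : IsUnit (diagonal (hv K b c)) := by
    rw [Matrix.isUnit_iff_isUnit_det, det_diagonal, isUnit_iff_ne_zero]
    exact Finset.prod_ne_zero_iff.mpr fun i _ => hv_ne i
  have hst : ∀ x, (ν x)ᴴ * diagonal (hv K b c) * ν x = diagonal (hv K b c) * ν (star x * x) :=
    fun x => by rw [← hν, map_mul, Matrix.mul_assoc]
  refine h.top (b := b) (c := c) (fun w hw => ?_)
    ((ν : A →* Matrix (Fin 3) (Fin 3) K).comp ((Units.coeHom A).comp (SUA f).subtype))
    (fun g g' e => Subtype.ext (Units.ext (ν.injective e))) (fun g => ?_) (fun g => ?_)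
    (fun X h1 h2 => ?_) N hN
  · obtain ⟨x, hx⟩ := ν.surjective (Matrix.of fun i _ => w i)
    have h1 : diagonal (hv K b c) * ν (star x * x) = diagonal (hv K b c) * 0 := by
      rw [← hst, hx, Matrix.mul_zero, Matrix.mul_assoc]
      ext i j
      exact hw
    have h2 : x = 0 := hA.anisotropic x (ν.injective (by rw [hu.mul_left_cancel h1, map_zero]))
    rw [h2, map_zero] at hx
    funext i
    exact (congrFun (congrFun hx i) 0).symm
  · have h1 : star ((g : Aˣ) : A) * ((g : Aˣ) : A) = 1 := by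
      rw [← Units.inv_eq_of_mul_eq_one_right g.2.1, Units.inv_mul]
    change (ν ((g : Aˣ) : A))ᴴ * _ * ν ((g : Aˣ) : A) = _
    rw [hst, h1, map_one, Matrix.mul_one]
  · have h1 := H268.det_compare (by norm_num) hA.finrank_eq f ν.toAlgHom ((g : Aˣ) : A) (ν := 1)
      (by rw [map_one]; exact g.2.2)
    exact h1
  · obtain ⟨x, rfl⟩ := ν.surjective X
    rw [hst] at h1
    have h3 : star x * x = 1 :=
      ν.injective (hu.mul_left_cancel (by rw [h1, map_one, Matrix.mul_one]))
    have h4 : x * star x = 1 := ν.injective (by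
      rw [map_mul, map_one, mul_eq_one_comm, ← map_mul, h3, map_one])
    have h5 := H268.det_compare (by norm_num) hA.finrank_eq ν.toAlgHom f x (ν := 1) h2
    rw [map_one] at h5
    exact ⟨⟨⟨x, star x, h4, h3⟩, h4, h5⟩, rfl⟩

/-- Split algebras of degree three. -/
theorem top_three (hA : Anis k K A 3) {P : H984.Pj A} (F : H984.Fm P 3)
    (hd : finrank K P.Cr = 1) (f : A →ₐ[K] Matrix (Fin 3) (Fin 3) Ω) (N : Subgroup (SUA f))
    (hN : N.index ≠ 0) : N = ⊤ := by
  have h1 : Function.Bijective (algebraMap K P.Cr) :=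
    Algebra.finrank_eq_one_iff_bijective_algebraMap.mp hd
  let e : K ≃ₐ[K] P.Cr := AlgEquiv.ofBijective (Algebra.ofId K P.Cr) h1
  have he : ∀ y, e.symm (star y) = star (e.symm y) := fun y => by
    obtain ⟨x, rfl⟩ := e.surjective y
    rw [AlgEquiv.symm_apply_apply, AlgEquiv.symm_apply_eq]
    exact (algebraMap_star_comm x).symm
  have h2 : ∀ i, ∃ δ : kˣ, algebraMap k K δ = e.symm (F.d i) := fun i => by
    obtain ⟨δ, hδ⟩ := (hA.fixed (e.symm (F.d i))).mp (by rw [← he, F.star_d])
    refine ⟨Units.mk0 δ ?_, hδ⟩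
    rintro rfl
    rw [map_zero, eq_comm, map_eq_zero] at hδ
    exact F.d0 i hδ
  choose δ hδ using h2
  have h0 : ∀ i, algebraMap k K (δ i) ≠ 0 := fun i => (map_ne_zero _).mpr (δ i).ne_zero
  have h3 : ∀ i, hv K (-(δ 2 / δ 1)) (-(δ 2 / δ 0)) i =
      algebraMap k K (δ 2) / (algebraMap k K (δ 0) * algebraMap k K (δ 1)) * e.symm (F.d i) := by
    intro i
    have := h0 0
    have := h0 1
    fin_cases i <;> simp [hv, ← hδ] <;> field_simp
  refine top_diag hA ((F.mxA K).trans e.symm.mapMatrix) (b := -(δ 2 / δ 1)) (c := -(δ 2 / δ 0))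
    (fun x => ?_) f N hN
  ext i j
  have h4 := congrArg e.symm (congrFun (congrFun (F.mx_star x) i) j)
  rw [H984.Fm.HH, Matrix.diagonal_mul, Matrix.mul_diagonal, Matrix.conjTranspose_apply, map_mul,
    map_mul, he] at h4
  rw [Matrix.diagonal_mul, Matrix.mul_diagonal, Matrix.conjTranspose_apply, h3, h3]
  change _ * e.symm (F.mx (star x) i j) = star (e.symm (F.mx x j i)) * _
  rw [mul_assoc, h4]
  ring

end Vale.Agent.P011N.X1
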